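import Mathlib

/-!
From the covering theorem for the unit sphere of `ℝ⁴` to Borsuk's problem in all dimensions `≥ 9`.
-/

namespace P052.H97

open Metric

noncomputable def snocE {d : ℕ} (y : EuclideanSpace ℝ (Fin d)) (h : ℝ) :
    EuclideanSpace ℝ (Fin (d + 1)) :=
  WithLp.toLp 2 (Fin.snoc (α := fun _ => ℝ) (fun i => y i) h)

theorem dist_snocE_sq {d : ℕ} (y z : EuclideanSpace ℝ (Fin d)) (h k : ℝ) :
    dist (snocE y h) (snocE z k) ^ 2 = dist y z ^ 2 + (h - k) ^ 2 := by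
  rw [EuclideanSpace.dist_eq, EuclideanSpace.dist_eq,
    Real.sq_sqrt (Finset.sum_nonneg (fun _ _ => sq_nonneg _)),
    Real.sq_sqrt (Finset.sum_nonneg (fun _ _ => sq_nonneg _)), Fin.sum_univ_castSucc]
  simp only [snocE, Fin.snoc_castSucc, Real.dist_eq, sq_abs, Fin.snoc_last]

theorem dist_snocE_zero {d : ℕ} (y z : EuclideanSpace ℝ (Fin d)) (h : ℝ) :
    dist (snocE y h) (snocE z h) = dist y z := by
  refine (pow_left_inj₀ dist_nonneg dist_nonneg (by norm_num)).mp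
    (?_ : dist (snocE y h) (snocE z h) ^ 2 = dist y z ^ 2)
  rw [dist_snocE_sq]; ring

theorem continuous_snocE {d : ℕ} : Continuous (fun y : EuclideanSpace ℝ (Fin d) => snocE y 0) :=
  (Isometry.of_dist_eq (fun y z => dist_snocE_zero y z 0)).continuous

/-- A compact set on a sphere of radius less than `D / √2`, with all distances at most `D`, such
that every cover by sets of diameter at most some `δ < D` has at least `k` members. -/
def Good (d k : ℕ) : Prop :=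
  ∃ (Y : Set (EuclideanSpace ℝ (Fin d))) (D ρ : ℝ) (c : EuclideanSpace ℝ (Fin d)),
    IsCompact Y ∧ 0 < D ∧ 2 * ρ ^ 2 < D ^ 2 ∧ (∀ y ∈ Y, dist y c ^ 2 = ρ ^ 2) ∧
    (∀ y ∈ Y, ∀ z ∈ Y, dist y z ≤ D) ∧
    ∀ (m : ℕ) (P : Fin m → Set (EuclideanSpace ℝ (Fin d))) (δ : ℝ), δ < D →
      (∀ i, ∀ y ∈ P i, ∀ z ∈ P i, dist y z ≤ δ) → Y ⊆ (⋃ i, P i) → k ≤ m

theorem Good.succ {d k : ℕ} (h : Good d k) : Good (d + 1) (k + 1) := by
  obtain ⟨Y, D, ρ, c, hcpt, hD, hρ, hc, hle, hcov⟩ := h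
  have hpos : 0 < D ^ 2 - ρ ^ 2 := by nlinarith [sq_nonneg ρ]
  set t : ℝ := Real.sqrt (D ^ 2 - ρ ^ 2) with ht
  have htpos : 0 < t := Real.sqrt_pos.mpr hpos
  have htsq : t ^ 2 = D ^ 2 - ρ ^ 2 := Real.sq_sqrt hpos.le
  have hDsq : D ^ 2 = t ^ 2 + ρ ^ 2 := by linarith only [htsq]
  have happ : ∀ y ∈ Y, dist (snocE c t) (snocE y 0) = D := by
    intro y hy
    have h1 : dist (snocE c t) (snocE y 0) ^ 2 = D ^ 2 := by
      rw [dist_snocE_sq, dist_comm, hc y hy, hDsq]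
      ring
    exact (pow_left_inj₀ dist_nonneg hD.le (by norm_num)).mp h1
  refine ⟨insert (snocE c t) ((fun y => snocE y 0) '' Y), D, D ^ 2 / (2 * t),
    snocE c ((D ^ 2 - 2 * ρ ^ 2) / (2 * t)), (hcpt.image continuous_snocE).insert _, hD,
    ?_, ?_, ?_, ?_⟩
  · rw [div_pow, mul_pow, htsq]
    rw [mul_div_assoc', div_lt_iff₀ (by (clear * - hpos; positivity))]
    nlinarith only [hρ]
  · rintro y (rfl | ⟨z, hz, rfl⟩)
    · rw [dist_snocE_sq, dist_self, hDsq]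
      field_simp
      ring
    · rw [dist_snocE_sq, hc z hz]
      rw [hDsq]
      field_simp
      ring
  · rintro y (rfl | ⟨z, hz, rfl⟩) w (rfl | ⟨z', hz', rfl⟩)
    · rw [dist_self]; exact hD.le
    · exact (happ z' hz').le
    · rw [dist_comm]; exact (happ z hz).le
    · show dist (snocE z 0) (snocE z' 0) ≤ D
      rw [dist_snocE_zero]
      exact hle z hz z' hz'
  · intro m P δ hδ hP hsub
    have hz : snocE c t ∈ ⋃ i, P i := hsub (Set.mem_insert _ _)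
    obtain ⟨i₀, hi₀⟩ := Set.mem_iUnion.mp hz
    obtain ⟨m', rfl⟩ : ∃ m', m = m' + 1 := ⟨m - 1, by have := i₀.pos; omega⟩
    have := hcov m' (fun i => (fun y => snocE y 0) ⁻¹' (P (i₀.succAbove i))) δ hδ ?_ ?_
    · omega
    · intro i y hy z hz'
      rw [← dist_snocE_zero y z 0]
      exact hP _ _ hy _ hz'
    · intro y hy
      have h1 : snocE y 0 ∈ ⋃ i, P i := hsub (Set.mem_insert_of_mem _ ⟨y, hy, rfl⟩)
      obtain ⟨j, hj⟩ := Set.mem_iUnion.mp h1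
      have hne : j ≠ i₀ := by
        rintro rfl
        have h2 := hP j _ hi₀ _ hj
        rw [happ y hy] at h2
        exact absurd (lt_of_le_of_lt h2 hδ) (lt_irrefl _)
      obtain ⟨i, rfl⟩ := Fin.exists_succAbove_eq hne
      exact Set.mem_iUnion.mpr ⟨i, hj⟩

theorem Good.add {d k : ℕ} (h : Good d k) (n : ℕ) : Good (d + n) (k + n) := by
  induction n with
  | zero => exact h
  | succ n ih => exact ih.succ

theorem Good.exists_set {d : ℕ} (h : Good d (d + 2)) :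
    ∃ Y : Set (EuclideanSpace ℝ (Fin d)), IsCompact Y ∧ 0 < Metric.diam Y ∧
      ∀ P : Fin (d + 1) → Set (EuclideanSpace ℝ (Fin d)), (⋃ i, P i) = Y →
        ∃ i, Metric.diam (P i) = Metric.diam Y := by
  obtain ⟨Y, D, ρ, c, hcpt, hD, hρ, hc, hle, hcov⟩ := h
  have hdiamle : Metric.diam Y ≤ D := Metric.diam_le_of_forall_dist_le hD.le hle
  have hbd := hcpt.isBounded
  refine ⟨Y, hcpt, ?_, ?_⟩
  · by_contra hcon
    have h0 : Metric.diam Y = 0 := le_antisymm (not_lt.mp hcon) Metric.diam_nonneg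
    have h1 := hcov 1 (fun _ => Y) 0 hD (by
      intro i y hy z hz
      have := Metric.dist_le_diam_of_mem hbd hy hz
      rwa [h0] at this) (by intro y hy; exact Set.mem_iUnion.mpr ⟨0, hy⟩)
    omega
  · intro P hP
    by_contra hcon
    push Not at hcon
    have hsub : ∀ i, P i ⊆ Y := fun i => by rw [← hP]; exact Set.subset_iUnion P i
    have hlt : ∀ i, Metric.diam (P i) < D := fun i =>
      lt_of_lt_of_le (lt_of_le_of_ne (Metric.diam_mono (hsub i) hbd) (hcon i)) hdiamle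
    obtain ⟨i₀, hi₀⟩ := Finite.exists_max (fun i => Metric.diam (P i))
    have h1 := hcov (d + 1) P (Metric.diam (P i₀)) (hlt i₀) (by
      intro i y hy z hz
      exact (Metric.dist_le_diam_of_mem (hbd.subset (hsub i)) hy hz).trans (hi₀ i))
      (by rw [hP])
    omega

/-- The point `x xᵀ - I / 4` in an orthonormal basis of the trace-free symmetric matrices. -/
noncomputable def phi (x : EuclideanSpace ℝ (Fin 4)) : EuclideanSpace ℝ (Fin 9) :=
  WithLp.toLp 2 ![√2 * (x 0 * x 1), √2 * (x 0 * x 2), √2 * (x 0 * x 3), √2 * (x 1 * x 2),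
    √2 * (x 1 * x 3), √2 * (x 2 * x 3), (x 0 ^ 2 + x 1 ^ 2 - x 2 ^ 2 - x 3 ^ 2) / 2,
    (x 0 ^ 2 - x 1 ^ 2 + x 2 ^ 2 - x 3 ^ 2) / 2, (x 0 ^ 2 - x 1 ^ 2 - x 2 ^ 2 + x 3 ^ 2) / 2]

theorem phi_neg (x : EuclideanSpace ℝ (Fin 4)) : phi (-x) = phi x := by
  simp [phi]

theorem continuous_phi : Continuous phi := by
  unfold phi
  refine (PiLp.continuous_toLp 2 _).comp (continuous_pi fun i => ?_)
  fin_cases i <;> simp <;> fun_prop

theorem norm_sq_eq (x : EuclideanSpace ℝ (Fin 4)) :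
    ‖x‖ ^ 2 = x 0 ^ 2 + x 1 ^ 2 + x 2 ^ 2 + x 3 ^ 2 := by
  rw [EuclideanSpace.norm_sq_eq]
  simp [Fin.sum_univ_four]

theorem inner_eq (x y : EuclideanSpace ℝ (Fin 4)) :
    inner ℝ x y = x 0 * y 0 + x 1 * y 1 + x 2 * y 2 + x 3 * y 3 := by
  simp [PiLp.inner_apply, Fin.sum_univ_four]
  ring

theorem inner_phi (x y : EuclideanSpace ℝ (Fin 4)) :
    inner ℝ (phi x) (phi y) = inner ℝ x y ^ 2 - ‖x‖ ^ 2 * ‖y‖ ^ 2 / 4 := by
  have h2 : √2 * √2 = (2 : ℝ) := Real.mul_self_sqrt (by norm_num)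
  have e : inner ℝ (phi x) (phi y) = (√2 * √2) * (x 0 * x 1 * (y 0 * y 1)
      + x 0 * x 2 * (y 0 * y 2) + x 0 * x 3 * (y 0 * y 3) + x 1 * x 2 * (y 1 * y 2)
      + x 1 * x 3 * (y 1 * y 3) + x 2 * x 3 * (y 2 * y 3))
      + (x 0 ^ 2 + x 1 ^ 2 - x 2 ^ 2 - x 3 ^ 2) / 2 * ((y 0 ^ 2 + y 1 ^ 2 - y 2 ^ 2 - y 3 ^ 2) / 2)
      + (x 0 ^ 2 - x 1 ^ 2 + x 2 ^ 2 - x 3 ^ 2) / 2 * ((y 0 ^ 2 - y 1 ^ 2 + y 2 ^ 2 - y 3 ^ 2) / 2)
      + (x 0 ^ 2 - x 1 ^ 2 - x 2 ^ 2 + x 3 ^ 2) / 2 *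
        ((y 0 ^ 2 - y 1 ^ 2 - y 2 ^ 2 + y 3 ^ 2) / 2) := by
    simp only [PiLp.inner_apply, phi, Fin.sum_univ_succ, Fin.sum_univ_zero]
    rw [h2]
    simp
    ring_nf
    rw [Real.sq_sqrt (by norm_num : (0 : ℝ) ≤ 2)]
    ring
  rw [e, h2, norm_sq_eq, norm_sq_eq, inner_eq]
  ring

theorem dist_phi_sq {x y : EuclideanSpace ℝ (Fin 4)} (hx : ‖x‖ = 1) (hy : ‖y‖ = 1) :
    dist (phi x) (phi y) ^ 2 = 2 - 2 * inner ℝ x y ^ 2 := by
  rw [dist_eq_norm, norm_sub_sq_real, ← real_inner_self_eq_norm_sq (phi x),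
    ← real_inner_self_eq_norm_sq (phi y), inner_phi, inner_phi, inner_phi,
    real_inner_self_eq_norm_sq, real_inner_self_eq_norm_sq, hx, hy]
  ring

/-- Every even colouring of the unit sphere of `ℝ⁴` with ten colours has nearly orthogonal
pairs in one colour. -/
def Core : Prop :=
  ∀ c : EuclideanSpace ℝ (Fin 4) → Fin 10, (∀ x, c (-x) = c x) → ∀ ε : ℝ, 0 < ε →
    ∃ x y, ‖x‖ = 1 ∧ ‖y‖ = 1 ∧ c x = c y ∧ |inner ℝ x y| ≤ ε

theorem good_nine (core : Core) : Good 9 11 := by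
  classical
  refine ⟨phi '' sphere 0 1, √2, √3 / 2, 0, (isCompact_sphere 0 1).image continuous_phi,
    by positivity, ?_, ?_, ?_, ?_⟩
  · rw [div_pow, Real.sq_sqrt (by norm_num), Real.sq_sqrt (by norm_num)]
    norm_num
  · rintro _ ⟨x, hx, rfl⟩
    have hx1 : ‖x‖ = 1 := by simpa using hx
    rw [dist_zero_right, ← real_inner_self_eq_norm_sq, inner_phi, real_inner_self_eq_norm_sq,
      hx1, div_pow, Real.sq_sqrt (by norm_num)]
    norm_num
  · rintro _ ⟨x, hx, rfl⟩ _ ⟨y, hy, rfl⟩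
    have hx1 : ‖x‖ = 1 := by simpa using hx
    have hy1 : ‖y‖ = 1 := by simpa using hy
    apply Real.le_sqrt_of_sq_le
    rw [dist_phi_sq hx1 hy1]
    nlinarith only [sq_nonneg (inner ℝ x y : ℝ)]
  · intro m P δ hδ hP hsub
    by_contra hm
    have hm10 : m ≤ 10 := by omega
    let c : EuclideanSpace ℝ (Fin 4) → Fin 10 := fun x =>
      if h : ∃ i, phi x ∈ P i then Fin.castLE hm10 h.choose else 0
    have hc : ∀ x, c (-x) = c x := by
      intro x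
      simp only [c, phi_neg]
    have hcmem : ∀ x y, ‖x‖ = 1 → ‖y‖ = 1 → c x = c y → ∃ i, phi x ∈ P i ∧ phi y ∈ P i := by
      intro x y hx hy hxy
      have h1 : ∃ i, phi x ∈ P i :=
        Set.mem_iUnion.mp (hsub ⟨x, by simpa using hx, rfl⟩)
      have h2 : ∃ i, phi y ∈ P i :=
        Set.mem_iUnion.mp (hsub ⟨y, by simpa using hy, rfl⟩)
      simp only [c, dif_pos h1, dif_pos h2] at hxy
      have h3 : h1.choose = h2.choose := Fin.castLE_injective hm10 hxy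
      exact ⟨h1.choose, h1.choose_spec, h3 ▸ h2.choose_spec⟩
    set δ' := max δ 0 with hδ'
    have hδ0 : 0 ≤ δ' := le_max_right _ _
    have hδ2 : δ' < √2 := max_lt hδ (by positivity)
    have hδsq : δ' ^ 2 < 2 := by
      have := pow_lt_pow_left₀ hδ2 hδ0 (two_ne_zero)
      rwa [Real.sq_sqrt (by norm_num)] at this
    have hη : 0 < (1 - δ' ^ 2 / 2) / 2 := by linarith
    obtain ⟨x, y, hx, hy, hxy, hle⟩ := core c hc (√((1 - δ' ^ 2 / 2) / 2)) (Real.sqrt_pos.mpr hη)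
    obtain ⟨i, hxi, hyi⟩ := hcmem x y hx hy hxy
    have h1 : dist (phi x) (phi y) ≤ δ' := (hP i _ hxi _ hyi).trans (le_max_left _ _)
    have h2 : dist (phi x) (phi y) ^ 2 ≤ δ' ^ 2 := pow_le_pow_left₀ dist_nonneg h1 2
    rw [dist_phi_sq hx hy] at h2
    have h3 : (inner ℝ x y : ℝ) ^ 2 ≤ (1 - δ' ^ 2 / 2) / 2 := by
      rw [← Real.sq_sqrt hη.le, ← sq_abs (inner ℝ x y : ℝ)]
      exact pow_le_pow_left₀ (abs_nonneg _) hle 2
    nlinarith only [h2, h3, hδsq]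

theorem result_of_core (core : Core) : ∀ d : ℕ, 9 ≤ d →
    ∃ Y : Set (EuclideanSpace ℝ (Fin d)), IsCompact Y ∧ 0 < Metric.diam Y ∧
      ∀ P : Fin (d + 1) → Set (EuclideanSpace ℝ (Fin d)), (⋃ i, P i) = Y →
        ∃ i, Metric.diam (P i) = Metric.diam Y := by
  intro d hd
  obtain ⟨n, rfl⟩ := Nat.exists_eq_add_of_le hd
  have h := (good_nine core).add n
  have e : 11 + n = 9 + n + 2 := by omega
  rw [e] at h
  exact h.exists_set

/-- The colouring form follows from the form with closed sets. -/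
theorem core_of_closed
    (hc : ∀ F : Fin 10 → Set (EuclideanSpace ℝ (Fin 4)), (∀ i, IsClosed (F i)) →
      (∀ x, ‖x‖ = 1 → ∃ i, x ∈ F i) →
      ∃ i, ∃ x ∈ F i, ∃ y ∈ F i, ‖x‖ = 1 ∧ ‖y‖ = 1 ∧ inner ℝ x y = 0) : Core := by
  intro c _ ε hε
  obtain ⟨i, x, hx, y, hy, hx1, hy1, hxy⟩ := hc
    (fun i => closure {x | ‖x‖ = 1 ∧ c x = i}) (fun i => isClosed_closure)
    (fun x hx => ⟨c x, subset_closure ⟨hx, rfl⟩⟩)
  have hmem : (x, y) ∈ closure
      ({x | ‖x‖ = 1 ∧ c x = i} ×ˢ {x | ‖x‖ = 1 ∧ c x = i} :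
        Set (EuclideanSpace ℝ (Fin 4) × EuclideanSpace ℝ (Fin 4))) := by
    rw [closure_prod_eq]
    exact ⟨hx, hy⟩
  have hcont : Continuous (fun p : EuclideanSpace ℝ (Fin 4) × EuclideanSpace ℝ (Fin 4) =>
      |inner ℝ p.1 p.2|) := by fun_prop
  have hopen : IsOpen {p : EuclideanSpace ℝ (Fin 4) × EuclideanSpace ℝ (Fin 4) |
      |inner ℝ p.1 p.2| < ε} := isOpen_lt hcont continuous_const
  obtain ⟨p, hp1, hp2⟩ := mem_closure_iff.mp hmem _ hopen (by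
    show |inner ℝ x y| < ε
    rw [hxy]; simpa using hε)
  exact ⟨p.1, p.2, hp2.1.1, hp2.2.1, hp2.1.2.trans hp2.2.2.symm, le_of_lt hp1⟩

end P052.H97
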