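import Mathlib
import Vale.Agent.P052.R2.H97.Stmt

/-!
From a colouring of the unit sphere to ten continuous homogeneous functions.
-/

namespace P052.H97

open Metric

/-- Ten continuous functions on `ℝ⁴`, homogeneous of degree one, with no common zero on the
sphere, such that no function is positive at two orthogonal points. -/
structure IsData (h : Fin 10 → EuclideanSpace ℝ (Fin 4) → ℝ) : Prop where
  cont : ∀ i, Continuous (h i)
  nonneg : ∀ i x, 0 ≤ h i x
  hom : ∀ i (a : ℝ) x, h i (a • x) = |a| * h i x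
  pos : ∀ x, x ≠ 0 → ∃ i, 0 < h i x
  orth : ∀ i x y, inner ℝ x y = 0 → h i x = 0 ∨ h i y = 0

/-- The cone over one colour class. -/
def cone (c : EuclideanSpace ℝ (Fin 4) → Fin 10) (i : Fin 10) : Set (EuclideanSpace ℝ (Fin 4)) :=
  {v | v = 0 ∨ ∃ (t : ℝ) (x : EuclideanSpace ℝ (Fin 4)), ‖x‖ = 1 ∧ c x = i ∧ v = t • x}

theorem cone_nonempty (c : EuclideanSpace ℝ (Fin 4) → Fin 10) (i : Fin 10) :
    (cone c i).Nonempty := ⟨0, Or.inl rfl⟩

theorem smul_mem_cone {c : EuclideanSpace ℝ (Fin 4) → Fin 10} {i : Fin 10}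
    {v : EuclideanSpace ℝ (Fin 4)} (hv : v ∈ cone c i) (a : ℝ) : a • v ∈ cone c i := by
  rcases hv with rfl | ⟨t, x, hx, hc, rfl⟩
  · exact Or.inl (smul_zero a)
  · exact Or.inr ⟨a * t, x, hx, hc, by rw [mul_smul]⟩

theorem infDist_smul (c : EuclideanSpace ℝ (Fin 4) → Fin 10) (i : Fin 10) (a : ℝ)
    (v : EuclideanSpace ℝ (Fin 4)) :
    infDist (a • v) (cone c i) = |a| * infDist v (cone c i) := by
  have key : ∀ (a : ℝ) (v : EuclideanSpace ℝ (Fin 4)),
      infDist (a • v) (cone c i) ≤ |a| * infDist v (cone c i) := by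
    intro a v
    refine le_of_forall_pos_le_add fun e he => ?_
    obtain ⟨p, hp, hlt⟩ := (infDist_lt_iff (cone_nonempty c i) (x := v)
      (r := infDist v (cone c i) + e / (|a| + 1))).mp (by
        have : 0 < e / (|a| + 1) := by positivity
        linarith)
    have h1 : infDist (a • v) (cone c i) ≤ dist (a • v) (a • p) :=
      infDist_le_dist_of_mem (smul_mem_cone hp a)
    rw [dist_smul₀, Real.norm_eq_abs] at h1
    have h2 : |a| * dist v p ≤ |a| * (infDist v (cone c i) + e / (|a| + 1)) :=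
      mul_le_mul_of_nonneg_left hlt.le (abs_nonneg a)
    have h3 : |a| * (e / (|a| + 1)) ≤ e := by
      rw [mul_div_assoc', div_le_iff₀ (by positivity)]
      nlinarith [abs_nonneg a]
    linarith
  rcases eq_or_ne a 0 with rfl | ha
  · rw [zero_smul, abs_zero, zero_mul]
    exact infDist_zero_of_mem (Or.inl rfl)
  · refine le_antisymm (key a v) ?_
    have h1 := key a⁻¹ (a • v)
    rw [smul_smul, inv_mul_cancel₀ ha, one_smul, abs_inv] at h1
    have h2 : 0 < |a| := abs_pos.mpr ha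
    have h3 := mul_le_mul_of_nonneg_left h1 h2.le
    rwa [← mul_assoc, mul_inv_cancel₀ h2.ne', one_mul] at h3

theorem cone_inner {c : EuclideanSpace ℝ (Fin 4) → Fin 10} {ε : ℝ}
    (hsep : ∀ x y, ‖x‖ = 1 → ‖y‖ = 1 → c x = c y → ε < |inner ℝ x y|) {i : Fin 10}
    {p q : EuclideanSpace ℝ (Fin 4)} (hp : p ∈ cone c i) (hq : q ∈ cone c i) :
    ε * (‖p‖ * ‖q‖) ≤ |inner ℝ p q| := by
  rcases hp with rfl | ⟨s, x, hx, hcx, rfl⟩
  · simp
  rcases hq with rfl | ⟨t, y, hy, hcy, rfl⟩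
  · simp
  rw [inner_smul_left, inner_smul_right, norm_smul, norm_smul, hx, hy, Real.norm_eq_abs,
    Real.norm_eq_abs, abs_mul, abs_mul]
  have h := (hsep x y hx hy (hcx.trans hcy.symm)).le
  simp only [conj_trivial, mul_one]
  have h2 := mul_le_mul_of_nonneg_left h (mul_nonneg (abs_nonneg s) (abs_nonneg t))
  calc ε * (|s| * |t|) = |s| * |t| * ε := by ring
    _ ≤ |s| * |t| * |inner ℝ x y| := h2
    _ = |s| * (|t| * |inner ℝ x y|) := by ring

theorem exists_h (c : EuclideanSpace ℝ (Fin 4) → Fin 10) (ε : ℝ) (hε : 0 < ε)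
    (hsep : ∀ x y, ‖x‖ = 1 → ‖y‖ = 1 → c x = c y → ε < |inner ℝ x y|) :
    ∃ h : Fin 10 → EuclideanSpace ℝ (Fin 4) → ℝ, IsData h := by
  have hε1 : ε < 1 := by
    have hx : ‖(EuclideanSpace.single 0 1 : EuclideanSpace ℝ (Fin 4))‖ = 1 := by simp
    have h := hsep _ _ hx hx rfl
    rwa [real_inner_self_eq_norm_sq, hx, one_pow, abs_one] at h
  refine ⟨fun i v => max 0 (ε / 8 * ‖v‖ - infDist v (cone c i)), ?_, ?_, ?_, ?_, ?_⟩
  · intro i
    exact continuous_const.max ((continuous_const.mul continuous_norm).sub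
      (continuous_infDist_pt _))
  · intro i x
    exact le_max_left _ _
  · intro i a x
    show max 0 (ε / 8 * ‖a • x‖ - infDist (a • x) (cone c i)) =
      |a| * max 0 (ε / 8 * ‖x‖ - infDist x (cone c i))
    rw [infDist_smul, norm_smul, Real.norm_eq_abs, mul_max_of_nonneg _ _ (abs_nonneg a), mul_zero]
    congr 1
    ring
  · intro x hx
    have hn : 0 < ‖x‖ := norm_pos_iff.mpr hx
    refine ⟨c (‖x‖⁻¹ • x), ?_⟩
    have hmem : x ∈ cone c (c (‖x‖⁻¹ • x)) := by
      refine Or.inr ⟨‖x‖, ‖x‖⁻¹ • x, ?_, rfl, ?_⟩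
      · rw [norm_smul, norm_inv, norm_norm, inv_mul_cancel₀ hn.ne']
      · rw [smul_smul, mul_inv_cancel₀ hn.ne', one_smul]
    rw [lt_max_iff]
    right
    rw [infDist_zero_of_mem hmem]
    have : 0 < ε / 8 * ‖x‖ := by positivity
    linarith
  · intro i x y hxy
    by_contra hcon
    rw [not_or] at hcon
    have hx : infDist x (cone c i) < ε / 8 * ‖x‖ := by
      by_contra h
      exact hcon.1 (max_eq_left (by linarith [not_lt.mp h]))
    have hy : infDist y (cone c i) < ε / 8 * ‖y‖ := by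
      by_contra h
      exact hcon.2 (max_eq_left (by linarith [not_lt.mp h]))
    obtain ⟨p, hp, hp2⟩ := (infDist_lt_iff (cone_nonempty c i)).mp hx
    obtain ⟨q, hq, hq2⟩ := (infDist_lt_iff (cone_nonempty c i)).mp hy
    have hX : 0 < ‖x‖ := by
      by_contra h
      have h0 : ‖x‖ = 0 := le_antisymm (not_lt.mp h) (norm_nonneg _)
      rw [h0, mul_zero] at hp2
      exact absurd hp2 (not_lt.mpr dist_nonneg)
    have hY : 0 < ‖y‖ := by
      by_contra h
      have h0 : ‖y‖ = 0 := le_antisymm (not_lt.mp h) (norm_nonneg _)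
      rw [h0, mul_zero] at hq2
      exact absurd hq2 (not_lt.mpr dist_nonneg)
    rw [dist_eq_norm] at hp2 hq2
    have h1 := cone_inner hsep hp hq
    have e : (inner ℝ p q : ℝ) = -(inner ℝ (x - p) q) - inner ℝ x (y - q) := by
      rw [inner_sub_left, inner_sub_right, hxy]
      ring
    have h2 : |(inner ℝ p q : ℝ)| ≤ ‖x - p‖ * ‖q‖ + ‖x‖ * ‖y - q‖ := by
      rw [e]
      have a1 := abs_real_inner_le_norm (x - p) q
      have a2 := abs_real_inner_le_norm x (y - q)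
      rw [abs_le] at a1 a2 ⊢
      constructor <;> linarith [a1.1, a1.2, a2.1, a2.2]
    have hP : ‖x‖ - ‖x - p‖ ≤ ‖p‖ := by
      have := norm_sub_norm_le x (x - p)
      rwa [sub_sub_cancel] at this
    have hQ : ‖y‖ - ‖y - q‖ ≤ ‖q‖ := by
      have := norm_sub_norm_le y (y - q)
      rwa [sub_sub_cancel] at this
    have hQ2 : ‖q‖ ≤ ‖y‖ + ‖y - q‖ := by
      have := norm_sub_le y (y - q)
      rwa [sub_sub_cancel] at this
    have b1 : 7 / 8 * ‖x‖ ≤ ‖p‖ := by nlinarith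
    have b2 : 7 / 8 * ‖y‖ ≤ ‖q‖ := by nlinarith
    have b3 : ‖q‖ ≤ 9 / 8 * ‖y‖ := by nlinarith
    have c1 : ε * (7 / 8 * ‖x‖ * (7 / 8 * ‖y‖)) ≤ ε * (‖p‖ * ‖q‖) := by
      gcongr
    have c2 : ‖x - p‖ * ‖q‖ ≤ ε / 8 * ‖x‖ * (9 / 8 * ‖y‖) := by
      gcongr
    have c3 : ‖x‖ * ‖y - q‖ ≤ ‖x‖ * (ε / 8 * ‖y‖) := by
      gcongr
    have hXY : 0 < ε * (‖x‖ * ‖y‖) := by positivity
    nlinarith only [h1, h2, c1, c2, c3, hXY]

/-- It is enough to refute the existence of the ten functions. -/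
theorem core_of_data (H : ∀ h : Fin 10 → EuclideanSpace ℝ (Fin 4) → ℝ, ¬ IsData h) : Core := by
  intro c _ ε hε
  by_contra hcon
  push Not at hcon
  obtain ⟨h, hh⟩ := exists_h c ε hε hcon
  exact H h hh

end P052.H97
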