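import Mathlib
import Vale.Agent.P052.R2.H97.Cover

/-!
Colour sets of subspaces and the rank of a set of colours.
-/

namespace P052.H97

open Module

/-- Euclidean space of dimension four. -/
abbrev E4 := EuclideanSpace ℝ (Fin 4)

variable {h : Fin 10 → EuclideanSpace ℝ (Fin 4) → ℝ}

open Classical in
/-- The colours seen in a subspace. -/
noncomputable def col (h : Fin 10 → E4 → ℝ) (U : Submodule ℝ E4) : Finset (Fin 10) :=
  Finset.univ.filter fun i => ∃ x ∈ U, 0 < h i x

theorem mem_col {U : Submodule ℝ E4} {i : Fin 10} : i ∈ col h U ↔ ∃ x ∈ U, 0 < h i x := by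
  classical
  simp [col]

theorem col_mono {U W : Submodule ℝ E4} (hUW : U ≤ W) : col h U ⊆ col h W := by
  intro i hi
  obtain ⟨x, hx, hp⟩ := mem_col.mp hi
  exact mem_col.mpr ⟨x, hUW hx, hp⟩

theorem IsData.zero (hh : IsData h) (i : Fin 10) : h i 0 = 0 := by
  have := hh.hom i 0 0
  simpa using this

theorem IsData.ne_zero (hh : IsData h) {i : Fin 10} {x : E4} (hx : 0 < h i x) : x ≠ 0 := by
  rintro rfl
  rw [hh.zero] at hx
  exact lt_irrefl _ hx

theorem col_disjoint (hh : IsData h) {U W : Submodule ℝ E4}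
    (hUW : ∀ x ∈ U, ∀ y ∈ W, (inner ℝ x y : ℝ) = 0) : Disjoint (col h U) (col h W) := by
  rw [Finset.disjoint_left]
  intro i hi hi'
  obtain ⟨x, hx, hp⟩ := mem_col.mp hi
  obtain ⟨y, hy, hq⟩ := mem_col.mp hi'
  rcases hh.orth i x y (hUW x hx y hy) with h0 | h0
  · exact hp.ne' h0
  · exact hq.ne' h0

theorem col_disjoint_orthogonal (hh : IsData h) (U : Submodule ℝ E4) :
    Disjoint (col h U) (col h Uᗮ) :=
  col_disjoint hh fun _ hx _ hy => Submodule.inner_right_of_mem_orthogonal hx hy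

theorem eq_bot_of_col_empty (hh : IsData h) {U : Submodule ℝ E4} (hU : col h U = ∅) : U = ⊥ := by
  rw [Submodule.eq_bot_iff]
  intro x hx
  by_contra hne
  obtain ⟨i, hi⟩ := hh.pos x hne
  have : i ∈ col h U := mem_col.mpr ⟨x, hx, hi⟩
  rw [hU] at this
  exact absurd this (Finset.notMem_empty i)

theorem col_bot (hh : IsData h) : col h ⊥ = ∅ := by
  rw [Finset.eq_empty_iff_forall_notMem]
  intro i hi
  obtain ⟨x, hx, hp⟩ := mem_col.mp hi
  exact hh.ne_zero hp ((Submodule.mem_bot ℝ).mp hx)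

theorem inf_eq_bot (hh : IsData h) {U W : Submodule ℝ E4} (hd : Disjoint (col h U) (col h W)) :
    U ⊓ W = ⊥ := by
  apply eq_bot_of_col_empty hh
  rw [Finset.eq_empty_iff_forall_notMem]
  intro i hi
  exact Finset.disjoint_left.mp hd (col_mono inf_le_left hi) (col_mono inf_le_right hi)

theorem finrank_E4 : finrank ℝ E4 = 4 := by simp

theorem finrank_le_four (U : Submodule ℝ E4) : finrank ℝ U ≤ 4 := by
  have := Submodule.finrank_le U
  rwa [finrank_E4] at this

theorem finrank_add_orthogonal (U : Submodule ℝ E4) : finrank ℝ U + finrank ℝ Uᗮ = 4 := by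
  rw [Submodule.finrank_add_finrank_orthogonal, finrank_E4]

theorem finrank_add_le (hh : IsData h) {U W : Submodule ℝ E4}
    (hd : Disjoint (col h U) (col h W)) : finrank ℝ U + finrank ℝ W ≤ 4 := by
  have h1 := Submodule.finrank_sup_add_finrank_inf_eq U W
  rw [inf_eq_bot hh hd, finrank_bot] at h1
  have h2 := finrank_le_four (U ⊔ W)
  omega

/-- The largest dimension of a subspace all whose colours lie in `I`. -/
noncomputable def rk (h : Fin 10 → E4 → ℝ) (I : Finset (Fin 10)) : ℕ :=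
  sSup {n | ∃ W : Submodule ℝ E4, col h W ⊆ I ∧ finrank ℝ W = n}

theorem bddAbove_rk (I : Finset (Fin 10)) :
    BddAbove {n | ∃ W : Submodule ℝ E4, col h W ⊆ I ∧ finrank ℝ W = n} :=
  ⟨4, by rintro _ ⟨W, _, rfl⟩; exact finrank_le_four W⟩

theorem finrank_le_rk {I : Finset (Fin 10)} {W : Submodule ℝ E4} (hW : col h W ⊆ I) :
    finrank ℝ W ≤ rk h I :=
  le_csSup (bddAbove_rk I) ⟨W, hW, rfl⟩

theorem exists_rk (hh : IsData h) (I : Finset (Fin 10)) :
    ∃ W : Submodule ℝ E4, col h W ⊆ I ∧ finrank ℝ W = rk h I :=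
  Nat.sSup_mem (s := {n | ∃ W : Submodule ℝ E4, col h W ⊆ I ∧ finrank ℝ W = n})
    ⟨0, ⊥, by rw [col_bot hh]; exact Finset.empty_subset _, finrank_bot ℝ E4⟩ (bddAbove_rk I)

theorem rk_mono (hh : IsData h) {I J : Finset (Fin 10)} (hIJ : I ⊆ J) : rk h I ≤ rk h J := by
  obtain ⟨W, hW, hr⟩ := exists_rk hh I
  rw [← hr]
  exact finrank_le_rk (hW.trans hIJ)

/-- Every set of colours is the colour set of a subspace whose complement has the other
colours. -/
def Surj (h : Fin 10 → E4 → ℝ) : Prop :=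
  ∀ I : Finset (Fin 10), ∃ U : Submodule ℝ E4, col h U = I ∧ col h Uᗮ = Iᶜ

theorem rk_eq (hh : IsData h) {I : Finset (Fin 10)} {U : Submodule ℝ E4} (hU : col h U = I)
    (hU' : col h Uᗮ = Iᶜ) : rk h I = finrank ℝ U := by
  refine le_antisymm ?_ (finrank_le_rk hU.le)
  obtain ⟨W, hW, hr⟩ := exists_rk hh I
  have h1 : Disjoint (col h W) (col h Uᗮ) := by
    rw [hU']
    exact (disjoint_compl_right (a := I)).mono_left hW
  have h2 := finrank_add_le hh h1
  have h3 := finrank_add_orthogonal U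
  omega

theorem rk_add_compl (hh : IsData h) (hs : Surj h) (I : Finset (Fin 10)) :
    rk h I + rk h Iᶜ = 4 := by
  obtain ⟨U, hU, hU'⟩ := hs I
  rw [rk_eq hh hU hU', rk_eq hh hU' (by rw [Submodule.orthogonal_orthogonal, hU, compl_compl])]
  exact finrank_add_orthogonal U

theorem rk_le_four (hh : IsData h) (I : Finset (Fin 10)) : rk h I ≤ 4 := by
  obtain ⟨W, -, hr⟩ := exists_rk hh I
  rw [← hr]
  exact finrank_le_four W

theorem rk_univ (hh : IsData h) : rk h Finset.univ = 4 := by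
  refine le_antisymm (rk_le_four hh _) ?_
  have := finrank_le_rk (h := h) (I := Finset.univ) (W := ⊤) (Finset.subset_univ _)
  rwa [finrank_top, finrank_E4] at this

theorem rk_empty (hh : IsData h) : rk h ∅ = 0 := by
  obtain ⟨W, hW, hr⟩ := exists_rk hh ∅
  rw [← hr, eq_bot_of_col_empty hh (Finset.subset_empty.mp hW), finrank_bot]

theorem rk_col (hh : IsData h) (hs : Surj h) (U : Submodule ℝ E4) :
    rk h (col h U) = finrank ℝ U := by
  have h1 := finrank_le_rk (h := h) (I := col h U) (W := U) (Finset.Subset.refl _)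
  have h2 := finrank_le_rk (h := h) (I := (col h U)ᶜ) (W := Uᗮ)
    (Finset.subset_compl_iff_disjoint_left.mpr (col_disjoint_orthogonal hh U))
  have h3 := rk_add_compl hh hs (col h U)
  have h4 := finrank_add_orthogonal U
  omega

theorem finrank_le_of_col_subset (hh : IsData h) (hs : Surj h) {U W : Submodule ℝ E4}
    (hUW : col h U ⊆ col h W) : finrank ℝ U ≤ finrank ℝ W := by
  rw [← rk_col hh hs U, ← rk_col hh hs W]
  exact rk_mono hh hUW

theorem rk_union_le (hh : IsData h) (hs : Surj h) (I J : Finset (Fin 10)) :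
    rk h (I ∪ J) ≤ rk h I + rk h J := by
  obtain ⟨W, hW, hr⟩ := exists_rk hh (I ∪ J)
  obtain ⟨A, hA, hA'⟩ := hs Iᶜ
  obtain ⟨B, hB, hB'⟩ := hs Jᶜ
  have hrA := rk_eq hh hA hA'
  have hrB := rk_eq hh hB hB'
  have hI := rk_add_compl hh hs I
  have hJ := rk_add_compl hh hs J
  have h0 : W ⊓ A ⊓ B = ⊥ := by
    apply eq_bot_of_col_empty hh
    rw [Finset.eq_empty_iff_forall_notMem]
    intro i hi
    have h1 : i ∈ I ∪ J := hW (col_mono (inf_le_left.trans inf_le_left) hi)
    have h2 : i ∈ Iᶜ := hA ▸ col_mono (inf_le_left.trans inf_le_right) hi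
    have h3 : i ∈ Jᶜ := hB ▸ col_mono inf_le_right hi
    rw [Finset.mem_compl] at h2 h3
    rcases Finset.mem_union.mp h1 with h4 | h4
    · exact h2 h4
    · exact h3 h4
  have e1 := Submodule.finrank_sup_add_finrank_inf_eq W A
  have e2 := Submodule.finrank_sup_add_finrank_inf_eq (W ⊓ A) B
  rw [h0, finrank_bot] at e2
  have f1 := finrank_le_four (W ⊔ A)
  have f2 := finrank_le_four (W ⊓ A ⊔ B)
  omega

/-- Three sets of rank at most one never cover all colours. -/
theorem cover_ne (hh : IsData h) (hs : Surj h) {A B C : Finset (Fin 10)} (hA : rk h A ≤ 1)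
    (hB : rk h B ≤ 1) (hC : rk h C ≤ 1) : A ∪ B ∪ C ≠ Finset.univ := by
  intro hU
  have h1 := rk_union_le hh hs (A ∪ B) C
  have h2 := rk_union_le hh hs A B
  rw [hU, rk_univ hh] at h1
  omega

/-- The number of colours of a subspace is at least the dimension of its symmetric square. -/
def Count (h : Fin 10 → E4 → ℝ) : Prop :=
  ∀ U : Submodule ℝ E4, finrank ℝ U * (finrank ℝ U + 1) ≤ 2 * (col h U).card

theorem rk_mul_le (hh : IsData h) (hc : Count h) (I : Finset (Fin 10)) :
    rk h I * (rk h I + 1) ≤ 2 * I.card := by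
  obtain ⟨W, hW, hr⟩ := exists_rk hh I
  rw [← hr]
  exact (hc W).trans (Nat.mul_le_mul_left 2 (Finset.card_le_card hW))

theorem rk_le_of_card_lt (hh : IsData h) (hc : Count h) {I : Finset (Fin 10)} {m : ℕ}
    (hm : 2 * I.card < (m + 1) * (m + 2)) : rk h I ≤ m := by
  by_contra hcon
  have h1 := rk_mul_le hh hc I
  have h2 : m + 1 ≤ rk h I := by omega
  have h3 : (m + 1) * (m + 2) ≤ rk h I * (rk h I + 1) := Nat.mul_le_mul h2 (by omega)
  omega

theorem rk_pair (hh : IsData h) (hc : Count h) {I : Finset (Fin 10)} (hI : I.card ≤ 2) :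
    rk h I ≤ 1 :=
  rk_le_of_card_lt hh hc (by omega)

theorem rk_le_two (hh : IsData h) (hc : Count h) {I : Finset (Fin 10)} (hI : I.card ≤ 5) :
    rk h I ≤ 2 :=
  rk_le_of_card_lt hh hc (by omega)

theorem card_compl_ten (I : Finset (Fin 10)) : Iᶜ.card = 10 - I.card := by
  rw [Finset.card_compl, Fintype.card_fin]

theorem two_le_rk (hh : IsData h) (hs : Surj h) (hc : Count h) {I : Finset (Fin 10)}
    (hI : 5 ≤ I.card) : 2 ≤ rk h I := by
  have h1 := rk_add_compl hh hs I
  have h2 := rk_le_two hh hc (I := Iᶜ) (by rw [card_compl_ten]; omega)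
  omega

theorem rk_five (hh : IsData h) (hs : Surj h) (hc : Count h) {I : Finset (Fin 10)}
    (hI : I.card = 5) : rk h I = 2 :=
  le_antisymm (rk_le_two hh hc hI.le) (two_le_rk hh hs hc hI.ge)

/-- A face has at most four elements. -/
theorem card_le_four (hh : IsData h) (hs : Surj h) (hc : Count h) {I : Finset (Fin 10)}
    (hI : rk h I ≤ 1) : I.card ≤ 4 := by
  by_contra hcon
  have := two_le_rk hh hs hc (I := I) (by omega)
  omega

/-- The complement of a face has rank three when the face is nonempty. -/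
theorem rk_compl_of_face (hh : IsData h) (hs : Surj h) {I : Finset (Fin 10)}
    (hI : rk h I ≤ 1) : 3 ≤ rk h Iᶜ := by
  have := rk_add_compl hh hs I
  omega

theorem rk_pos (hh : IsData h) (hs : Surj h) {I : Finset (Fin 10)} (hI : I.Nonempty) :
    1 ≤ rk h I := by
  obtain ⟨U, hU, hU'⟩ := hs I
  rw [rk_eq hh hU hU']
  by_contra hcon
  have h0 : finrank ℝ U = 0 := by omega
  rw [Submodule.finrank_eq_zero.mp h0, col_bot hh] at hU
  exact hI.ne_empty hU.symm

/-- The colours at one point. -/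
theorem rk_point (hh : IsData h) (hs : Surj h) {x : E4} {I : Finset (Fin 10)}
    (hI : ∀ i ∈ I, 0 < h i x) : rk h I ≤ 1 := by
  have h1 : I ⊆ col h (ℝ ∙ x) := fun i hi =>
    mem_col.mpr ⟨x, Submodule.mem_span_singleton_self x, hI i hi⟩
  have h2 := rk_mono hh h1
  rw [rk_col hh hs] at h2
  exact h2.trans (finrank_span_singleton_le x)
where
  finrank_span_singleton_le (x : E4) : finrank ℝ (ℝ ∙ x) ≤ 1 := by
    rcases eq_or_ne x 0 with rfl | hx
    · rw [Submodule.span_zero_singleton, finrank_bot]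
      exact zero_le_one
    · rw [finrank_span_singleton hx]

/-- A set of rank at most one is the set of colours of a single point. -/
theorem exists_point (hh : IsData h) (hs : Surj h) {I : Finset (Fin 10)} (hI : rk h I ≤ 1)
    (hne : I.Nonempty) : ∃ x : E4, x ≠ 0 ∧ ∀ i, i ∈ I ↔ 0 < h i x := by
  obtain ⟨U, hU, hU'⟩ := hs I
  have h1 : finrank ℝ U = 1 := by
    have := rk_pos hh hs hne
    have := rk_eq hh hU hU'
    omega
  obtain ⟨v, hv0, hv⟩ := finrank_eq_one_iff'.mp h1
  have hvne : (v : E4) ≠ 0 := fun h => hv0 (Subtype.ext h)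
  refine ⟨v, hvne, fun i => ?_⟩
  rw [← hU, mem_col]
  constructor
  · rintro ⟨x, hx, hp⟩
    obtain ⟨c, hc⟩ := hv ⟨x, hx⟩
    have hc' : c • (v : E4) = x := congrArg Subtype.val hc
    rw [← hc', hh.hom] at hp
    exact pos_of_mul_pos_of_pos_left' hp
  · intro hp
    exact ⟨v, v.2, hp⟩
where
  pos_of_mul_pos_of_pos_left' {a b : ℝ} (hp : 0 < |a| * b) : 0 < b := by
    by_contra hcon
    have := mul_nonpos_of_nonneg_of_nonpos (abs_nonneg a) (not_lt.mp hcon)
    linarith

end P052.H97
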