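import Mathlib
import Vale.Agent.P052.R2.H97.Rank

/-!
The rank of a set of colours in terms of subspaces on which the colours vanish, and the passage
from the Borsuk-Ulam theorem for positive operators to surjectivity.
-/

namespace P052.H97

open Module

variable {h : Fin 10 → EuclideanSpace ℝ (Fin 4) → ℝ}

/-- The colours of `I` vanish on a subspace of codimension at most `d`. -/
def R (h : Fin 10 → E4 → ℝ) (I : Finset (Fin 10)) (d : ℕ) : Prop :=
  ∃ W : Submodule ℝ E4, 4 ≤ finrank ℝ W + d ∧ ∀ i ∈ I, ∀ w ∈ W, h i w = 0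

theorem col_subset_compl_iff (hh : IsData h) {I : Finset (Fin 10)} {W : Submodule ℝ E4} :
    (∀ i ∈ I, ∀ w ∈ W, h i w = 0) ↔ col h W ⊆ Iᶜ := by
  constructor
  · intro hW i hi
    rw [Finset.mem_compl]
    intro hI
    obtain ⟨w, hw, hp⟩ := mem_col.mp hi
    exact hp.ne' (hW i hI w hw)
  · intro hW i hi w hw
    by_contra hne
    have hp : 0 < h i w := lt_of_le_of_ne (hh.nonneg i w) (Ne.symm hne)
    have := hW (mem_col.mpr ⟨w, hw, hp⟩)
    rw [Finset.mem_compl] at this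
    exact this hi

theorem R_iff (hh : IsData h) (hs : Surj h) {I : Finset (Fin 10)} {d : ℕ} :
    R h I d ↔ rk h I ≤ d := by
  have hsum := rk_add_compl hh hs I
  constructor
  · rintro ⟨W, hW, hz⟩
    have := finrank_le_rk (h := h) ((col_subset_compl_iff hh).mp hz)
    omega
  · intro hd
    obtain ⟨W, hW, hr⟩ := exists_rk hh Iᶜ
    exact ⟨W, by omega, (col_subset_compl_iff hh).mpr hW⟩

theorem R_mono {I J : Finset (Fin 10)} {d e : ℕ} (hIJ : I ⊆ J) (hde : d ≤ e) (hJ : R h J d) :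
    R h I e := by
  obtain ⟨W, hW, hz⟩ := hJ
  exact ⟨W, by omega, fun i hi => hz i (hIJ hi)⟩

theorem R_union {I J : Finset (Fin 10)} {a b : ℕ} (hI : R h I a) (hJ : R h J b) :
    R h (I ∪ J) (a + b) := by
  obtain ⟨W, hW, hz⟩ := hI
  obtain ⟨V, hV, hy⟩ := hJ
  refine ⟨W ⊓ V, ?_, ?_⟩
  · have e1 := Submodule.finrank_sup_add_finrank_inf_eq W V
    have f1 := finrank_le_four (W ⊔ V)
    omega
  · intro i hi w hw
    rcases Finset.mem_union.mp hi with h1 | h1
    · exact hz i h1 w hw.1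
    · exact hy i h1 w hw.2

theorem not_R_univ (hh : IsData h) : ¬ R h Finset.univ 3 := by
  rintro ⟨W, hW, hz⟩
  have h0 : col h W = ∅ := by
    have := (col_subset_compl_iff hh).mp hz
    rwa [Finset.compl_univ, Finset.subset_empty] at this
  rw [eq_bot_of_col_empty hh h0, finrank_bot] at hW
  omega

theorem R_cover_ne (hh : IsData h) {A B C : Finset (Fin 10)} (hA : R h A 1) (hB : R h B 1)
    (hC : R h C 1) : A ∪ B ∪ C ≠ Finset.univ := by
  intro hU
  have := R_union (R_union hA hB) hC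
  rw [hU] at this
  exact not_R_univ hh this

theorem surj_iff (hs : Surj h) (I : Finset (Fin 10)) :
    ∃ U : Submodule ℝ E4, (∀ i, i ∈ I ↔ ∃ u ∈ U, 0 < h i u) ∧
      (∀ i, i ∉ I ↔ ∃ w ∈ Uᗮ, 0 < h i w) := by
  obtain ⟨U, hU, hU'⟩ := hs I
  refine ⟨U, fun i => ?_, fun i => ?_⟩
  · rw [← mem_col (h := h), hU]
  · rw [← mem_col (h := h), hU', Finset.mem_compl]

theorem col_eq_of_iff {U : Submodule ℝ E4} {I : Finset (Fin 10)}
    (hU : ∀ i, i ∈ I ↔ ∃ u ∈ U, 0 < h i u) : col h U = I := by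
  ext i
  rw [mem_col, hU i]

theorem col_compl_of_iff {U : Submodule ℝ E4} {I : Finset (Fin 10)}
    (hU : ∀ i, i ∉ I ↔ ∃ w ∈ U, 0 < h i w) : col h U = Iᶜ := by
  ext i
  rw [mem_col, Finset.mem_compl, hU i]

theorem R_compl_of_not (hh : IsData h) (hs : Surj h) {I : Finset (Fin 10)} {d : ℕ}
    (hI : ¬ R h I d) (_hd : d ≤ 3) : R h Iᶜ (3 - d) := by
  rw [R_iff hh hs] at hI ⊢
  have := rk_add_compl hh hs I
  omega

theorem not_R_compl (hh : IsData h) (hs : Surj h) {I : Finset (Fin 10)} {d e : ℕ}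
    (hI : R h I d) (hde : d + e < 4) : ¬ R h Iᶜ e := by
  rw [R_iff hh hs] at hI ⊢
  have := rk_add_compl hh hs I
  omega

theorem R_one_of_card (hh : IsData h) (hs : Surj h) (hc : Count h) {I : Finset (Fin 10)}
    (hI : I.card < 3) : R h I 1 :=
  (R_iff hh hs).mpr (rk_pair hh hc (by omega))

theorem R_two_of_card (hh : IsData h) (hs : Surj h) (hc : Count h) {I : Finset (Fin 10)}
    (hI : I.card < 6) : R h I 2 :=
  (R_iff hh hs).mpr (rk_le_two hh hc (by omega))

theorem R_one_card_le (hh : IsData h) (hs : Surj h) (hc : Count h) {I : Finset (Fin 10)}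
    (hI : R h I 1) : I.card ≤ 4 :=
  card_le_four hh hs hc ((R_iff hh hs).mp hI)

theorem R_card_bound (hh : IsData h) (hs : Surj h) (hc : Count h) {I : Finset (Fin 10)} {d : ℕ}
    (hI : ¬ R h I d) : (d + 1) * (d + 2) ≤ 2 * I.card := by
  rw [R_iff hh hs] at hI
  by_contra hcon
  exact hI (rk_le_of_card_lt hh hc (by omega))

theorem finrank_eq_two (hh : IsData h) (hs : Surj h) {I : Finset (Fin 10)} {U : Submodule ℝ E4}
    (hU : ∀ i, i ∈ I ↔ ∃ u ∈ U, 0 < h i u) (h2 : R h I 2) (h1 : ¬ R h I 1) :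
    finrank ℝ U = 2 := by
  rw [R_iff hh hs] at h1 h2
  rw [← rk_col hh hs U, col_eq_of_iff hU]
  omega

theorem finrank_eq_three (hh : IsData h) (hs : Surj h) {I : Finset (Fin 10)}
    {U : Submodule ℝ E4} (hU : ∀ i, i ∈ I ↔ ∃ u ∈ U, 0 < h i u) (hne : Iᶜ.Nonempty)
    (h1 : R h Iᶜ 1) : finrank ℝ U = 3 := by
  rw [R_iff hh hs] at h1
  have h2 := rk_pos hh hs hne
  have h3 := rk_add_compl hh hs I
  rw [← rk_col hh hs U, col_eq_of_iff hU]
  omega

theorem R_col (hh : IsData h) (hs : Surj h) (U : Submodule ℝ E4) : R h (col h U) (finrank ℝ U) :=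
  (R_iff hh hs).mpr (rk_col hh hs U).le

theorem R_of_subset_col (hh : IsData h) (hs : Surj h) {U : Submodule ℝ E4}
    {I : Finset (Fin 10)} (hI : ∀ i ∈ I, ∃ u ∈ U, 0 < h i u) : R h I (finrank ℝ U) :=
  R_mono (fun i hi => mem_col.mpr (hI i hi)) le_rfl (R_col hh hs U)

theorem R_point (hh : IsData h) (hs : Surj h) {x : E4} {I : Finset (Fin 10)}
    (hI : ∀ i ∈ I, 0 < h i x) : R h I 1 :=
  (R_iff hh hs).mpr (rk_point hh hs hI)

theorem R_exists_point (hh : IsData h) (hs : Surj h) {I : Finset (Fin 10)} (hI : R h I 1)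
    (hne : I.Nonempty) : ∃ x : E4, x ≠ 0 ∧ ∀ i, i ∈ I ↔ 0 < h i x :=
  exists_point hh hs ((R_iff hh hs).mp hI) hne

/-- The Borsuk-Ulam theorem for positive operators, all directions. -/
def LemmaG : Prop :=
  ∀ (E : Type) [NormedAddCommGroup E] [InnerProductSpace ℝ E] [FiniteDimensional ℝ E]
    (ι : Type) [Fintype ι], Fintype.card ι = finrank ℝ E * (finrank ℝ E + 1) / 2 →
    ∀ Psi : (E →L[ℝ] E) → ι → ℝ, ContinuousOn Psi {B | B.IsPositive} →
      (∀ B : E →L[ℝ] E, B.IsPositive → ∀ i, 0 ≤ Psi B i) → Psi 0 = 0 →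
      (∀ B : E →L[ℝ] E, B.IsPositive → B ≠ 0 → ∃ i, 0 < Psi B i) →
      (∀ B B' : E →L[ℝ] E, B.IsPositive → B'.IsPositive → B ∘L B' = 0 →
        ∀ i, Psi B i = 0 ∨ Psi B' i = 0) →
      ∀ v : ι → ℝ, v ≠ 0 →
        ∃ B B' : E →L[ℝ] E, B.IsPositive ∧ B'.IsPositive ∧ B ∘L B' = 0 ∧
          ∃ c > 0, ∀ i, Psi B i - Psi B' i = c * v i

/-- The Borsuk-Ulam theorem for positive operators, too few functions. -/
def LemmaGcard : Prop :=
  ∀ (E : Type) [NormedAddCommGroup E] [InnerProductSpace ℝ E] [FiniteDimensional ℝ E]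
    (ι : Type) [Fintype ι], Fintype.card ι < finrank ℝ E * (finrank ℝ E + 1) / 2 →
    ∀ Psi : (E →L[ℝ] E) → ι → ℝ, ContinuousOn Psi {B | B.IsPositive} →
      (∀ B : E →L[ℝ] E, B.IsPositive → ∀ i, 0 ≤ Psi B i) → Psi 0 = 0 →
      (∀ B : E →L[ℝ] E, B.IsPositive → B ≠ 0 → ∃ i, 0 < Psi B i) →
      (∀ B B' : E →L[ℝ] E, B.IsPositive → B'.IsPositive → B ∘L B' = 0 →
        ∀ i, Psi B i = 0 ∨ Psi B' i = 0) → False

section psi

variable {E : Type} [NormedAddCommGroup E] [InnerProductSpace ℝ E] {κ : Type} [Fintype κ] (b : OrthonormalBasis κ ℝ E) (j : E →ₗᵢ[ℝ] E4)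

theorem psi_cont (hh : IsData h) (i : Fin 10) :
    Continuous fun B : E →L[ℝ] E => ∑ k, h i (j (B (b k))) := by
  refine continuous_finsetSum _ fun k _ => (hh.cont i).comp (j.continuous.comp ?_)
  exact (ContinuousLinearMap.apply ℝ E (b k)).continuous

theorem psi_pos (hh : IsData h) {B : E →L[ℝ] E} (hB : B ≠ 0) :
    ∃ i, 0 < ∑ k, h i (j (B (b k))) := by
  have : ∃ k, B (b k) ≠ 0 := by
    by_contra hcon
    push Not at hcon
    apply hB
    apply ContinuousLinearMap.coe_injective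
    exact b.toBasis.ext fun k => by simpa using hcon k
  obtain ⟨k, hk⟩ := this
  obtain ⟨i, hi⟩ := hh.pos (j (B (b k))) (fun h0 => hk (j.injective (by rw [h0, map_zero])))
  exact ⟨i, lt_of_lt_of_le hi
    (Finset.single_le_sum (f := fun k => h i (j (B (b k)))) (fun k _ => hh.nonneg i _)
      (Finset.mem_univ k))⟩

theorem psi_exists {B : E →L[ℝ] E} {i : Fin 10} (hi : 0 < ∑ k, h i (j (B (b k)))) :
    ∃ x, 0 < h i (j (B x)) := by
  by_contra hcon
  push Not at hcon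
  exact absurd hi (not_lt.mpr (Finset.sum_nonpos fun k _ => hcon (b k)))

theorem psi_disj (hh : IsData h) {B B' : E →L[ℝ] E} (hB : B.IsPositive)
    (hBB : B ∘L B' = 0) (i : Fin 10) :
    ∑ k, h i (j (B (b k))) = 0 ∨ ∑ k, h i (j (B' (b k))) = 0 := by
  by_contra hcon
  rw [not_or] at hcon
  have h1 : 0 < ∑ k, h i (j (B (b k))) :=
    lt_of_le_of_ne (Finset.sum_nonneg fun k _ => hh.nonneg i _) (Ne.symm hcon.1)
  have h2 : 0 < ∑ k, h i (j (B' (b k))) :=
    lt_of_le_of_ne (Finset.sum_nonneg fun k _ => hh.nonneg i _) (Ne.symm hcon.2)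
  obtain ⟨x, hx⟩ := psi_exists b j h1
  obtain ⟨y, hy⟩ := psi_exists b j h2
  have h0 : (inner ℝ (j (B x)) (j (B' y)) : ℝ) = 0 := by
    rw [j.inner_map_map]
    have e : (inner ℝ (B x) (B' y) : ℝ) = inner ℝ x (B (B' y)) := hB.isSymmetric x (B' y)
    rw [e, ← ContinuousLinearMap.comp_apply, hBB, zero_apply, inner_zero_right]
  rcases hh.orth i _ _ h0 with h3 | h3
  · exact hx.ne' h3
  · exact hy.ne' h3

end psi

theorem surj_of_lemmaG (hG : LemmaG) (hh : IsData h) : Surj h := by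
  classical
  intro I
  let b : OrthonormalBasis (Fin 4) ℝ E4 := EuclideanSpace.basisFun (Fin 4) ℝ
  let j : E4 →ₗᵢ[ℝ] E4 := LinearIsometry.id
  let v : Fin 10 → ℝ := fun i => if i ∈ I then 1 else -1
  have hv : v ≠ 0 := by
    intro h0
    have := congrFun h0 0
    simp only [v, Pi.zero_apply] at this
    split_ifs at this <;> norm_num at this
  obtain ⟨B, B', hB, hB', hBB, c, hc, hcv⟩ := hG E4 (Fin 10) (by rw [finrank_E4]; simp)
    (fun B i => ∑ k, h i (j (B (b k))))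
    (continuous_pi fun i => psi_cont b j hh i).continuousOn
    (fun B _ i => Finset.sum_nonneg fun k _ => hh.nonneg i _)
    (by funext i; simp [hh.zero])
    (fun B _ hne => psi_pos b j hh hne)
    (fun B B' hB _ hBB i => psi_disj b j hh hB hBB i) v hv
  set U : Submodule ℝ E4 := LinearMap.range (B : E4 →ₗ[ℝ] E4) with hU
  have hsub : ∀ y, B' y ∈ Uᗮ := by
    intro y
    rw [Submodule.mem_orthogonal]
    rintro _ ⟨x, rfl⟩
    have e : (inner ℝ (B x) (B' y) : ℝ) = inner ℝ x (B (B' y)) := hB.isSymmetric x (B' y)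
    show (inner ℝ (B x) (B' y) : ℝ) = 0
    rw [e, ← ContinuousLinearMap.comp_apply, hBB, zero_apply, inner_zero_right]
  have h1 : I ⊆ col h U := by
    intro i hi
    have h2 := hcv i
    simp only [v, if_pos hi, mul_one] at h2
    have h3 : 0 ≤ ∑ k, h i (j (B' (b k))) := Finset.sum_nonneg fun k _ => hh.nonneg i _
    obtain ⟨x, hx⟩ := psi_exists b j (B := B) (i := i) (by linarith)
    exact mem_col.mpr ⟨B x, ⟨x, rfl⟩, hx⟩
  have h2 : Iᶜ ⊆ col h Uᗮ := by
    intro i hi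
    rw [Finset.mem_compl] at hi
    have h2 := hcv i
    simp only [v, if_neg hi, mul_neg, mul_one] at h2
    have h3 : 0 ≤ ∑ k, h i (j (B (b k))) := Finset.sum_nonneg fun k _ => hh.nonneg i _
    obtain ⟨x, hx⟩ := psi_exists b j (B := B') (i := i) (by linarith)
    exact mem_col.mpr ⟨B' x, hsub x, hx⟩
  have h3 := col_disjoint_orthogonal hh U
  refine ⟨U, ?_, ?_⟩
  · refine Finset.Subset.antisymm ?_ h1
    intro i hi
    by_contra hcon
    exact Finset.disjoint_left.mp h3 hi (h2 (Finset.mem_compl.mpr hcon))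
  · refine Finset.Subset.antisymm ?_ h2
    intro i hi
    rw [Finset.mem_compl]
    intro hcon
    exact Finset.disjoint_left.mp h3 (h1 hcon) hi

theorem count_of_lemmaG (hG : LemmaGcard) (hh : IsData h) : Count h := by
  classical
  intro U
  by_contra hcon
  rw [not_le] at hcon
  let b : OrthonormalBasis (Fin (finrank ℝ U)) ℝ U := stdOrthonormalBasis ℝ U
  let j : U →ₗᵢ[ℝ] E4 := U.subtypeₗᵢ
  have hcard : Fintype.card {i // i ∈ col h U} < finrank ℝ U * (finrank ℝ U + 1) / 2 := by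
    rw [Fintype.card_coe]
    have := Nat.div_mul_cancel (Nat.even_mul_succ_self (finrank ℝ U)).two_dvd
    omega
  refine hG U {i // i ∈ col h U} hcard (fun B i => ∑ k, h i.1 (j (B (b k))))
    (continuous_pi fun i : {i // i ∈ col h U} => psi_cont b j hh i.1).continuousOn
    (fun B _ i => Finset.sum_nonneg fun k _ => hh.nonneg i.1 _)
    (by funext i; simp [hh.zero])
    (fun B _ hne => ?_)
    (fun B B' hB _ hBB i => psi_disj b j hh hB hBB i.1)
  obtain ⟨i, hi⟩ := psi_pos b j hh hne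
  obtain ⟨x, hx⟩ := psi_exists b j hi
  exact ⟨⟨i, mem_col.mpr ⟨j (B x), (B x).2, hx⟩⟩, hi⟩

end P052.H97
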