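import Mathlib
import Vale.Agent.P052.R2.H97.RankR

/-!
Consequences of the extension lemma (Lemma E): no triple of colours lies in exactly one facet, and
a set of four colours never has exactly one triple which is not a face.
-/

namespace P052.H97

open Module

variable {h : Fin 10 → EuclideanSpace ℝ (Fin 4) → ℝ}

/-- The extension lemma. -/
def LemmaE (h : Fin 10 → E4 → ℝ) : Prop :=
  ∀ (m : ℕ) (j : EuclideanSpace ℝ (Fin m) →ₗᵢ[ℝ] E4)
    (Φ : (EuclideanSpace ℝ (Fin m) →L[ℝ] EuclideanSpace ℝ (Fin m)) → Fin 10 → ℝ),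
    Continuous Φ → (∀ (r : ℝ) s, 0 ≤ r → Φ (r • s) = r • Φ s) →
    (∀ s, s.IsPositive → ∀ i, 0 ≤ Φ s i) →
    (∀ s, s.IsPositive → s ≠ 0 → ∃ i, 0 < Φ s i) →
    (∀ s, s.IsPositive → ∀ i, 0 < Φ s i → ∃ x, 0 < h i (j (s x))) →
    ∃ s, s.IsPositive ∧ ∀ W : Submodule ℝ E4,
      (∀ i, 0 < Φ s i → ∀ w ∈ W, h i w = 0) → finrank ℝ W + m ≤ 4

section gg

variable {m : ℕ} (j : EuclideanSpace ℝ (Fin m) →ₗᵢ[ℝ] E4)

/-- The largest value of `h i` on the image of the unit ball. -/
noncomputable def gg (h : Fin 10 → E4 → ℝ) (j : EuclideanSpace ℝ (Fin m) →ₗᵢ[ℝ] E4)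
    (s : EuclideanSpace ℝ (Fin m) →L[ℝ] EuclideanSpace ℝ (Fin m)) (i : Fin 10) : ℝ :=
  sSup ((fun x => h i (j (s x))) '' Metric.closedBall 0 1)

theorem gg_cont2 (hh : IsData h) (i : Fin 10) :
    Continuous (fun p : (EuclideanSpace ℝ (Fin m) →L[ℝ] EuclideanSpace ℝ (Fin m)) ×
      EuclideanSpace ℝ (Fin m) => h i (j (p.1 p.2))) :=
  (hh.cont i).comp (j.continuous.comp isBoundedBilinearMap_apply.continuous)

theorem gg_cont (hh : IsData h) (i : Fin 10) : Continuous fun s => gg h j s i :=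
  (isCompact_closedBall (0 : EuclideanSpace ℝ (Fin m)) 1).continuous_sSup (gg_cont2 j hh i)

theorem gg_bdd (hh : IsData h) (s : EuclideanSpace ℝ (Fin m) →L[ℝ] EuclideanSpace ℝ (Fin m))
    (i : Fin 10) : BddAbove ((fun x => h i (j (s x))) '' Metric.closedBall 0 1) :=
  (isCompact_closedBall (0 : EuclideanSpace ℝ (Fin m)) 1).bddAbove_image
    ((hh.cont i).comp (j.continuous.comp s.continuous)).continuousOn

theorem le_gg (hh : IsData h) (s : EuclideanSpace ℝ (Fin m) →L[ℝ] EuclideanSpace ℝ (Fin m))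
    (i : Fin 10) {x : EuclideanSpace ℝ (Fin m)} (hx : ‖x‖ ≤ 1) : h i (j (s x)) ≤ gg h j s i :=
  le_csSup (gg_bdd j hh s i) ⟨x, by simpa using hx, rfl⟩

theorem gg_nonneg (hh : IsData h)
    (s : EuclideanSpace ℝ (Fin m) →L[ℝ] EuclideanSpace ℝ (Fin m)) (i : Fin 10) :
    0 ≤ gg h j s i :=
  (hh.nonneg i _).trans (le_gg j hh s i (x := 0) (by simp))

theorem gg_pos_iff (hh : IsData h)
    (s : EuclideanSpace ℝ (Fin m) →L[ℝ] EuclideanSpace ℝ (Fin m)) (i : Fin 10) :
    0 < gg h j s i ↔ ∃ x, 0 < h i (j (s x)) := by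
  constructor
  · intro hp
    by_contra hcon
    push Not at hcon
    refine absurd hp (not_lt.mpr (csSup_le ⟨_, 0, by simp, rfl⟩ ?_))
    rintro _ ⟨x, -, rfl⟩
    exact hcon x
  · rintro ⟨x, hx⟩
    have hxp : 0 < ‖x‖ + 1 := by positivity
    refine lt_of_lt_of_le ?_ (le_gg j hh s i (x := (‖x‖ + 1)⁻¹ • x) ?_)
    · rw [map_smul, map_smul, hh.hom]
      exact mul_pos (abs_pos.mpr (inv_ne_zero hxp.ne')) hx
    · rw [norm_smul, norm_inv, Real.norm_of_nonneg hxp.le, inv_mul_le_iff₀ hxp]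
      linarith

theorem gg_smul (hh : IsData h) {r : ℝ} (hr : 0 ≤ r)
    (s : EuclideanSpace ℝ (Fin m) →L[ℝ] EuclideanSpace ℝ (Fin m)) (i : Fin 10) :
    gg h j (r • s) i = r * gg h j s i := by
  have e : ∀ x, h i (j ((r • s) x)) = r * h i (j (s x)) := by
    intro x
    rw [smul_apply, map_smul, hh.hom, abs_of_nonneg hr]
  apply le_antisymm
  · refine csSup_le ⟨_, 0, by simp, rfl⟩ ?_
    rintro _ ⟨x, hx, rfl⟩
    show h i (j ((r • s) x)) ≤ _
    rw [e]
    exact mul_le_mul_of_nonneg_left (le_gg j hh s i (by simpa using hx)) hr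
  · rcases eq_or_lt_of_le hr with rfl | hr'
    · rw [zero_mul]
      exact gg_nonneg j hh _ i
    · rw [← le_div_iff₀' hr']
      refine csSup_le ⟨_, 0, by simp, rfl⟩ ?_
      rintro _ ⟨x, hx, rfl⟩
      rw [le_div_iff₀' hr']
      show r * h i (j (s x)) ≤ _
      rw [← e]
      exact le_gg j hh _ i (by simpa using hx)

theorem gg_ne_zero (hh : IsData h)
    {s : EuclideanSpace ℝ (Fin m) →L[ℝ] EuclideanSpace ℝ (Fin m)} (hs : s ≠ 0) :
    ∃ i, 0 < gg h j s i := by
  obtain ⟨x, hx⟩ : ∃ x, s x ≠ 0 := by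
    by_contra hcon
    push Not at hcon
    exact hs (ContinuousLinearMap.ext hcon)
  obtain ⟨i, hi⟩ := hh.pos (j (s x)) (fun h0 => hx (j.injective (by rw [h0, map_zero])))
  exact ⟨i, (gg_pos_iff j hh s i).mpr ⟨x, hi⟩⟩

end gg

/-- If `P` is a proper subset of `I` of the same rank `m`, then some subset of `I` of rank `m`
does not contain `P`. -/
theorem lemmaP (hE : LemmaE h) (hh : IsData h) (hs : Surj h) {I P : Finset (Fin 10)} {m : ℕ}
    (_hPI : P ⊆ I) (hne : P ≠ I) (hP : P.Nonempty) (hI : rk h I = m) (hPm : rk h P = m) :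
    ∃ J ⊆ I, ∃ k ∈ P, k ∉ J ∧ m ≤ rk h J := by
  classical
  obtain ⟨U, hU, hU'⟩ := hs I
  have hUm : finrank ℝ U = m := by rw [← rk_eq hh hU hU', hI]
  obtain ⟨j, hj⟩ : ∃ j : EuclideanSpace ℝ (Fin m) →ₗᵢ[ℝ] E4, LinearMap.range j.toLinearMap = U := by
    let b : OrthonormalBasis (Fin m) ℝ U := (stdOrthonormalBasis ℝ U).reindex (finCongr hUm)
    refine ⟨U.subtypeₗᵢ.comp b.repr.symm.toLinearIsometry, ?_⟩
    ext x
    constructor
    · rintro ⟨y, rfl⟩
      exact (b.repr.symm y).2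
    · intro hx
      exact ⟨b.repr ⟨x, hx⟩, by simp⟩
  let lam : (EuclideanSpace ℝ (Fin m) →L[ℝ] EuclideanSpace ℝ (Fin m)) → ℝ :=
    fun s => P.inf' hP (fun k => gg h j s k)
  have hlamle : ∀ s, ∀ k ∈ P, lam s ≤ gg h j s k := fun s k hk => Finset.inf'_le _ hk
  have hlamex : ∀ s, ∃ k ∈ P, lam s = gg h j s k := fun s => Finset.exists_mem_eq_inf' hP _
  have hlam0 : ∀ s, 0 ≤ lam s := by
    intro s
    obtain ⟨k, -, hk⟩ := hlamex s
    rw [hk]
    exact gg_nonneg j hh s k
  have hlamc : Continuous lam :=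
    Continuous.finset_inf'_apply hP fun k _ => gg_cont j hh k
  have hlamh : ∀ (r : ℝ) s, 0 ≤ r → lam (r • s) = r * lam s := by
    intro r s hr
    apply le_antisymm
    · obtain ⟨k, hk, e⟩ := hlamex s
      rw [e, ← gg_smul j hh hr]
      exact hlamle _ k hk
    · obtain ⟨k, hk, e⟩ := hlamex (r • s)
      rw [e, gg_smul j hh hr]
      exact mul_le_mul_of_nonneg_left (hlamle s k hk) hr
  let Φ : (EuclideanSpace ℝ (Fin m) →L[ℝ] EuclideanSpace ℝ (Fin m)) → Fin 10 → ℝ :=
    fun s i => if i ∈ P then gg h j s i - lam s else gg h j s i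
  have hΦle : ∀ s i, Φ s i ≤ gg h j s i := by
    intro s i
    by_cases hi : i ∈ P
    · simp only [Φ, if_pos hi]
      linarith [hlam0 s]
    · simp only [Φ, if_neg hi]
      exact le_rfl
  have c1 : Continuous Φ := by
    refine continuous_pi fun i => ?_
    by_cases hi : i ∈ P
    · simp only [Φ, if_pos hi]
      exact (gg_cont j hh i).sub hlamc
    · simp only [Φ, if_neg hi]
      exact gg_cont j hh i
  have c2 : ∀ (r : ℝ) s, 0 ≤ r → Φ (r • s) = r • Φ s := by
    intro r s hr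
    funext i
    rw [Pi.smul_apply, smul_eq_mul]
    by_cases hi : i ∈ P
    · simp only [Φ, if_pos hi]
      rw [gg_smul j hh hr, hlamh r s hr, mul_sub]
    · simp only [Φ, if_neg hi]
      exact gg_smul j hh hr s i
  have c3 : ∀ s, s.IsPositive → ∀ i, 0 ≤ Φ s i := by
    intro s _ i
    by_cases hi : i ∈ P
    · simp only [Φ, if_pos hi]
      linarith [hlamle s i hi]
    · simp only [Φ, if_neg hi]
      exact gg_nonneg j hh s i
  have c4 : ∀ s, s.IsPositive → s ≠ 0 → ∃ i, 0 < Φ s i := by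
    intro s hspos hs0
    by_contra hcon
    push Not at hcon
    have h1 : ∀ i ∉ P, gg h j s i = 0 := by
      intro i hi
      have := hcon i
      simp only [Φ, if_neg hi] at this
      exact le_antisymm this (gg_nonneg j hh s i)
    have h2 : ∀ i ∈ P, gg h j s i = lam s := by
      intro i hi
      have := hcon i
      simp only [Φ, if_pos hi] at this
      exact le_antisymm (by linarith) (hlamle s i hi)
    obtain ⟨i₀, hi₀⟩ := gg_ne_zero j hh hs0
    have hi₀P : i₀ ∈ P := by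
      by_contra hc
      exact hi₀.ne' (h1 i₀ hc)
    have hlampos : 0 < lam s := by rw [← h2 i₀ hi₀P]; exact hi₀
    set V : Submodule ℝ E4 := LinearMap.range (j.toLinearMap ∘ₗ s.toLinearMap) with hV
    have hcolV : col h V = P := by
      ext i
      rw [mem_col]
      constructor
      · rintro ⟨_, ⟨x, rfl⟩, hx⟩
        by_contra hc
        exact ((gg_pos_iff j hh s i).mpr ⟨x, hx⟩).ne' (h1 i hc)
      · intro hi
        obtain ⟨x, hx⟩ := (gg_pos_iff j hh s i).mp (by rw [h2 i hi]; exact hlampos)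
        exact ⟨_, ⟨x, rfl⟩, hx⟩
    have hVU : V ≤ U := by
      rw [← hj]
      exact LinearMap.range_comp_le_range _ _
    have hVm : finrank ℝ V = m := by rw [← rk_col hh hs V, hcolV, hPm]
    have hVeq : V = U := Submodule.eq_of_le_of_finrank_eq hVU (by rw [hVm, hUm])
    rw [hVeq, hU] at hcolV
    exact hne hcolV.symm
  have c5 : ∀ s, s.IsPositive → ∀ i, 0 < Φ s i → ∃ x, 0 < h i (j (s x)) := by
    intro s _ i hi
    exact (gg_pos_iff j hh s i).mp (lt_of_lt_of_le hi (hΦle s i))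
  obtain ⟨s, hs0, hsW⟩ := hE m j Φ c1 c2 c3 c4 c5
  obtain ⟨k, hk, hke⟩ := hlamex s
  refine ⟨Finset.univ.filter fun i => 0 < Φ s i, ?_, k, hk, ?_, ?_⟩
  · intro i hi
    rw [Finset.mem_filter] at hi
    obtain ⟨x, hx⟩ := (gg_pos_iff j hh s i).mp (lt_of_lt_of_le hi.2 (hΦle s i))
    rw [← hU]
    exact mem_col.mpr ⟨_, hj ▸ ⟨s x, rfl⟩, hx⟩
  · rw [Finset.mem_filter]
    rintro ⟨-, hpos⟩
    simp only [Φ, if_pos hk, hke, sub_self] at hpos
    exact lt_irrefl _ hpos
  · by_contra hcon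
    rw [not_le] at hcon
    obtain ⟨W, hW, hz⟩ := (R_iff (I := Finset.univ.filter fun i => 0 < Φ s i) hh hs).mpr le_rfl
    have := hsW W (fun i hi => hz i (by simpa using hi))
    omega

/-- No triple of colours lies in exactly one facet. -/
theorem wv (hE : LemmaE h) (hh : IsData h) (hs : Surj h) (t : Finset (Fin 10)) (o : Fin 10)
    (ht : t.card = 3) (ho : o ∉ t) (hR : R h (insert o t) 1) :
    ∃ e, e ∉ t ∧ e ≠ o ∧ R h (insert e t) 1 := by
  have hR' := (R_iff hh hs).mp hR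
  have htne : t.Nonempty := Finset.card_pos.mp (by omega)
  have e1 : rk h (insert o t) = 1 :=
    le_antisymm hR' (rk_pos hh hs (Finset.insert_nonempty _ _))
  have e2 : rk h t = 1 :=
    le_antisymm ((rk_mono hh (Finset.subset_insert o t)).trans hR') (rk_pos hh hs htne)
  have f1 := rk_add_compl hh hs (insert o t)
  have f2 := rk_add_compl hh hs t
  obtain ⟨J, hJ, k, hk, hkJ, hr⟩ := lemmaP hE hh hs (I := tᶜ) (P := (insert o t)ᶜ) (m := 3)
    (Finset.compl_subset_compl.mpr (Finset.subset_insert o t)) (by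
      intro heq
      have : insert o t = t := compl_injective heq
      exact ho (by rw [← this]; exact Finset.mem_insert_self o t))
    (by
      rw [← Finset.card_pos, card_compl_ten, Finset.card_insert_of_notMem ho]
      omega) (by omega) (by omega)
  rw [Finset.mem_compl, Finset.mem_insert, not_or] at hk
  refine ⟨k, hk.2, hk.1, (R_iff hh hs).mpr ?_⟩
  have f3 := rk_add_compl hh hs J
  have hsub : insert k t ⊆ Jᶜ := by
    intro i hi
    rw [Finset.mem_compl]
    rcases Finset.mem_insert.mp hi with rfl | hi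
    · exact hkJ
    · intro hiJ
      exact (Finset.mem_compl.mp (hJ hiJ)) hi
  have f4 := rk_mono hh hsub
  omega

/-- A set of four colours of rank two has no unique triple of rank two. -/
theorem four (hE : LemmaE h) (hh : IsData h) (hs : Surj h) (hc : Count h)
    {I T : Finset (Fin 10)} (hI : I.card = 4) (hT : T.card = 3) (hTI : T ⊆ I)
    (hR : ¬ R h T 1) : ∃ T' ⊆ I, T'.card = 3 ∧ T' ≠ T ∧ ¬ R h T' 1 := by
  have hR' : 2 ≤ rk h T := by
    by_contra hcon
    exact hR ((R_iff hh hs).mpr (by omega))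
  have e1 : rk h I ≤ 2 := rk_le_two hh hc (by omega)
  have e2 := rk_mono hh hTI
  obtain ⟨J, hJ, k, hk, hkJ, hr⟩ := lemmaP hE hh hs (I := I) (P := T) (m := 2) hTI (by
      rintro rfl
      omega) (Finset.card_pos.mp (by omega)) (by omega) (by omega)
  have hJ3 : 3 ≤ J.card := by
    have h1 := rk_mul_le hh hc J
    have h2 : 2 * 3 ≤ rk h J * (rk h J + 1) := Nat.mul_le_mul hr (by omega)
    omega
  have hJ4 : J.card < 4 := by
    have h1 : J ⊂ I := Finset.ssubset_iff_subset_ne.mpr ⟨hJ, fun he => hkJ (he ▸ hTI hk)⟩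
    have h2 := Finset.card_lt_card h1
    omega
  refine ⟨J, hJ, by omega, fun he => hkJ (he ▸ hk), fun hRJ => ?_⟩
  have := (R_iff hh hs).mp hRJ
  omega

end P052.H97
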