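import Mathlib
import Vale.Agent.P052.R2.H97.WV
import Vale.Agent.P052.R2.H38.LemE
import Vale.Agent.P052.R2.H381.Surj
import Vale.Agent.P052.R2.H381.Facet
import Vale.Agent.P052.R2.H495.LemL
import Vale.Agent.P052.R2.H387.Core

/-!
Assembly: ten closed sets without orthogonal pairs never cover the unit sphere of `ℝ⁴`, and the
consequences for the problem of Borsuk.
-/

namespace P052.H97

open Module

theorem lemG : Vale.Agent.P052.H38.LemG := by
  intro Ψ hc h0 hz hne hdisj v hv
  obtain ⟨k, hk⟩ : ∃ k, v k ≠ 0 := by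
    by_contra hcon
    push Not at hcon
    exact hv (funext hcon)
  obtain ⟨P, N, hP, hN, -, -, hPN0, hPN, hL⟩ :=
    Vale.Agent.P052.R2.H381.orth_bu (⊤ : Submodule ℝ E4) (F := Fin 9 → ℝ)
    (by simp [finrank_top])
    (fun T j => v k * Ψ T (k.succAbove j) - v (k.succAbove j) * Ψ T k)
    (by
      refine continuousOn_pi.2 fun j => ?_
      have h1 : ∀ i, ContinuousOn (fun T => Ψ T i)
          {T | T.IsPositive ∧ LinearMap.range (T : E4 →ₗ[ℝ] E4) ≤ ⊤} := fun i =>
        ((continuousOn_pi.1 hc) i).mono fun T hT => hT.1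
      exact (continuousOn_const.mul (h1 _)).sub (continuousOn_const.mul (h1 _)))
  have hcomp : ∀ A B : E4 →L[ℝ] E4, A.IsPositive → (∀ x y, inner ℝ (A x) (B y) = (0 : ℝ)) →
      A ∘L B = 0 := by
    intro A B hA hAB
    ext1 y
    apply ext_inner_left ℝ
    intro x
    rw [ContinuousLinearMap.comp_apply, zero_apply, inner_zero_right]
    have e : (inner ℝ (A x) (B y) : ℝ) = inner ℝ x (A (B y)) := hA.isSymmetric x (B y)
    rw [← e]
    exact hAB x y
  have hPNc := hcomp P N hP hPN
  have hNPc := hcomp N P hN (fun x y => by rw [real_inner_comm]; exact hPN y x)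
  set r := (Ψ P k - Ψ N k) / v k with hr
  have h2 : ∀ i, Ψ P i - Ψ N i = r * v i := by
    intro i
    rcases eq_or_ne i k with rfl | hik
    · rw [hr, div_mul_cancel₀ _ hk]
    · obtain ⟨j, rfl⟩ := Fin.exists_succAbove_eq hik
      have h3 : v k * Ψ P (k.succAbove j) - v (k.succAbove j) * Ψ P k =
        v k * Ψ N (k.succAbove j) - v (k.succAbove j) * Ψ N k := congrFun hL j
      rw [hr, div_mul_eq_mul_div, eq_div_iff hk]
      linarith
  have hr0 : r ≠ 0 := by
    intro hr0
    have h3 : ∀ i, Ψ P i = 0 ∧ Ψ N i = 0 := by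
      intro i
      have h4 := h2 i
      rw [hr0, zero_mul] at h4
      rcases hdisj P N hP hN hPNc i with h5 | h5
      · exact ⟨h5, by linarith⟩
      · exact ⟨by linarith, h5⟩
    apply hPN0
    constructor
    · by_contra hcon
      obtain ⟨i, hi⟩ := hne P hP hcon
      exact hi.ne' (h3 i).1
    · by_contra hcon
      obtain ⟨i, hi⟩ := hne N hN hcon
      exact hi.ne' (h3 i).2
  rcases lt_or_gt_of_ne hr0 with h3 | h3
  · exact ⟨N, P, hN, hP, hNPc, -r, by linarith, fun i => by linarith [h2 i]⟩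
  · exact ⟨P, N, hP, hN, hPNc, r, h3, h2⟩

theorem lemmaE {h : Fin 10 → E4 → ℝ} (hh : IsData h) : LemmaE h :=
  fun m j Φ h1 h2 _ h4 h5 => Vale.Agent.P052.H38.lemmaE_of_G lemG hh m j Φ h1 h2 h4 h5

theorem main (h : Fin 10 → E4 → ℝ) : ¬ IsData h := by
  intro hh
  have hs : Surj h := Vale.Agent.P052.R2.H381.surj hh
  have hc : Count h := Vale.Agent.P052.R2.H381.count hh
  have hE : LemmaE h := lemmaE hh
  refine Vale.Agent.P052.R2.H387.core (fun I => R h I 1) (fun I J hIJ hJ => R_mono hIJ le_rfl hJ)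
    (fun I hI => R_one_of_card hh hs hc (by omega))
    (fun A B C hA hB hC => R_cover_ne hh hA hB hC) ?_ (fun t o ht ho hR => wv hE hh hs t o ht ho hR) ?_
  · intro I o hI ho
    obtain ⟨U, hU, -⟩ := surj_iff hs I
    have h2 : R h I 2 := R_two_of_card hh hs hc (by omega)
    have h1 : ¬ R h I 1 := fun h1 => by
      have := R_one_card_le hh hs hc h1
      omega
    obtain ⟨T, hTI, hoT, hT3, hT⟩ := Vale.Agent.P052.R2.H495.lemL hh.cont hh.hom hh.pos
      (fun j Φ => hE 2 j Φ) (fun T hT => R_one_of_card hh hs hc hT) I U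
      (finrank_eq_two hh hs hU h2 h1) hU o ho
    exact ⟨T, hTI, hT3, hoT, hT⟩
  · obtain ⟨x, -, A, hA, hAx⟩ := Vale.Agent.P052.R2.H381.exists_facet h hh.cont
      (fun i x => by
        have := hh.hom i (-1) x
        rwa [neg_one_smul, abs_neg, abs_one, one_mul] at this) hh.nonneg hh.pos
      (fun i x y hxy hp => by
        rcases hh.orth i x y hxy with h0 | h0
        · exact hp.1.ne' h0
        · exact hp.2.ne' h0)
    exact ⟨A, hA, R_point hh hs hAx⟩

theorem core : Core := core_of_data main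

theorem final : ∀ d : ℕ, 9 ≤ d →
    ∃ Y : Set (EuclideanSpace ℝ (Fin d)), IsCompact Y ∧ 0 < Metric.diam Y ∧
      ∀ P : Fin (d + 1) → Set (EuclideanSpace ℝ (Fin d)), (⋃ i, P i) = Y →
        ∃ i, Metric.diam (P i) = Metric.diam Y :=
  result_of_core core

end P052.H97
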